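import Vale.Agent.P181.H382.Defs
import Vale.Agent.P181.H530.Torus2
import Vale.Agent.P181.SZT0.Tr

set_option autoImplicit false

/-!
# P181, LL, L2: pigeonhole over row `1`
-/

open MvPolynomial

namespace Vale.Agent.P181.H382.H556

open Vale.Agent.P181.T4 (HW rowOp)
open Vale.Agent.P181.H280 (plethMult)
open Vale.Agent.P181.H530.Torus (W mem_W Up mem_Up mv finrank_step rowOp_pow_W rowOp_pow_W_zero
  plethMult_eq_W)
open Vale.Agent.P181.SZT0 (rc rc_inj rowOp_rc coeff_rc sum_row)

/-- The pairs into the rows `≥ 2`. -/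
def P2 (m : ℕ) : Finset (Fin m × Fin m) :=
  Finset.univ.filter fun q => q.1 < q.2 ∧ 2 ≤ (q.2 : ℕ)

lemma mem_P2 {m : ℕ} {q : Fin m × Fin m} : q ∈ P2 m ↔ q.1 < q.2 ∧ 2 ≤ (q.2 : ℕ) := by
  simp [P2]

/-- Transport to `Fin N`. -/
lemma finrank_NN {m : ℕ} {σ : Type} [Fintype σ] {e : ℕ} {mu : Fin m → ℕ} :
    Module.finrank ℂ (NN m σ e mu) ≤
      Module.finrank ℂ (W m (Fintype.card σ) e (P2 m) mu) := by
  classical
  let ε : σ ≃ Fin (Fintype.card σ) := Fintype.equivFin σ
  let L : NN m σ e mu →ₗ[ℂ] W m (Fintype.card σ) e (P2 m) mu :=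
    ((rc m ε).toLinearMap).restrict (by
      rintro f ⟨h1, h2, h3, h4⟩
      change rc m ε f ∈ W m (Fintype.card σ) e (P2 m) mu
      refine mem_W.2 ⟨fun τ => ?_, fun v hv => ?_, fun q hq => ?_⟩
      · have h5 := h4 ((ε.trans τ).trans ε.symm)
        change rename _ (rc m ε f) = rc m ε f
        conv_rhs => rw [← h5]
        rw [rc, rename_rename, rename_rename]
        congr 2
        funext p
        simp
      · obtain ⟨u, hu, h5, h6⟩ := coeff_rc ε.injective hv
        refine ⟨fun i => ?_, fun j => ?_⟩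
        · rw [sum_row ε.injective h5 h6, h1 u hu]
        · rw [← h2 u hu (ε.symm j)]
          refine Finset.sum_congr rfl fun i _ => ?_
          rw [← h5, Equiv.apply_symm_apply]
      · rw [mem_P2] at hq
        rw [rowOp_rc ε.injective, h3 q.1 q.2 hq.1 hq.2, map_zero])
  refine LinearMap.finrank_le_finrank_of_injective (f := L) ?_
  intro f g h
  exact Subtype.ext (rc_inj ε.injective (congrArg Subtype.val h))

/-- The steps. -/
lemma finrank_W (k N e j : ℕ) (mu : Fin (k + 3) → ℕ) (hj : mu 1 = j) :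
    Module.finrank ℂ (W (k + 3) N e (P2 (k + 3)) mu) ≤
      ∑ i ∈ Finset.range (j + 1), plethMult N e (k + 3) (mv mu 0 1 i) := by
  classical
  have h01 : (0 : Fin (k + 3)) < 1 := Fin.lt_def.2 (by simp)
  have hP1 : ∀ t, (t, (0 : Fin (k + 3))) ∈ P2 (k + 3) → (t, (1 : Fin (k + 3))) ∈ P2 (k + 3) := by
    intro t ht
    rw [mem_P2] at ht
    exact absurd ht.2 (by simp)
  have hP2 : ∀ q, ((1 : Fin (k + 3)), q) ∈ P2 (k + 3) → ((0 : Fin (k + 3)), q) ∈ P2 (k + 3) := by
    intro q hq
    rw [mem_P2] at hq ⊢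
    exact ⟨h01.trans hq.1, hq.2⟩
  have h1 := finrank_step (rowOp 0 1) (W (k + 3) N e (P2 (k + 3)) mu)
    (fun i => W (k + 3) N e (Up (k + 3)) (mv mu 0 1 i)) (mu 1)
    (fun i _ => inferInstance)
    (by
      intro i hi x hx h0
      have h2 := rowOp_pow_W h01 hP1 hP2 hi hx
      refine mem_W.2 ⟨h2.1, h2.2.1, fun q hq => ?_⟩
      rw [mem_Up] at hq
      by_cases hq2 : 2 ≤ (q.2 : ℕ)
      · exact h2.2.2 q (mem_P2.2 ⟨hq, hq2⟩)
      · have h3 : q.1 = 0 ∧ q.2 = 1 := by
          have h4 : (q.1 : ℕ) < q.2 := hq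
          refine ⟨Fin.ext ?_, Fin.ext ?_⟩
          · show (q.1 : ℕ) = 0
            omega
          · show (q.2 : ℕ) = ((1 : Fin (k + 3)) : ℕ)
            have : ((1 : Fin (k + 3)) : ℕ) = 1 := rfl
            omega
        rw [h3.1, h3.2]
        rw [pow_succ'] at h0
        exact h0)
    (fun x hx => rowOp_pow_W_zero h01 hP1 hP2 hx)
  rw [hj] at h1
  refine h1.trans (le_of_eq (Finset.sum_congr rfl fun i _ => ?_))
  rw [plethMult_eq_W]

/-- **(L2)** -/
theorem pigN : PigN := by
  intro k e j σ _ tau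
  classical
  by_cases hB : j + ∑ i, tau i ≤ e * Fintype.card σ
  · refine finrank_NN.trans ((finrank_W k (Fintype.card σ) e j _ rfl).trans (le_of_eq ?_))
    rw [← Finset.sum_range_reflect]
    refine Finset.sum_congr rfl fun i hi => ?_
    rw [Finset.mem_range] at hi
    congr 1
    funext r
    have h1 : ((1 : Fin (k + 3)) : ℕ) = 1 := rfl
    refine Fin.cases ?_ (fun r => ?_) r
    · simp only [mv, wj, Fin.cons_zero, if_true]
      omega
    · refine Fin.cases ?_ (fun r => ?_) r
      · have h2 : (Fin.succ 0 : Fin (k + 3)) = 1 := rfl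
        have h3 : (1 : Fin (k + 3)) ≠ 0 := by
          intro h
          have := congrArg Fin.val h
          simp at this
        rw [h2]
        unfold mv
        rw [if_neg h3, if_pos rfl]
        change j - (j + 1 - 1 - i) = i
        omega
      · have h3 : (r.succ.succ : Fin (k + 3)) ≠ 0 := Fin.succ_ne_zero _
        have h4 : (r.succ.succ : Fin (k + 3)) ≠ 1 := by
          intro h
          have := congrArg Fin.val h
          simp at this
        unfold mv
        rw [if_neg h3, if_neg h4]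
        rfl
  · have h0 : NN (k + 3) σ e (wj (e * Fintype.card σ) j tau) = ⊥ := by
      rw [eq_bot_iff]
      rintro f ⟨h1, h2, -, -⟩
      rw [Submodule.mem_bot]
      by_contra hne
      obtain ⟨v, hv⟩ := MvPolynomial.ne_zero_iff.1 hne
      have h3 : ∑ i, ∑ j, v (i, j) = ∑ i, wj (e * Fintype.card σ) j tau i :=
        Finset.sum_congr rfl fun i _ => h1 v hv i
      rw [Finset.sum_comm, Finset.sum_congr rfl fun j _ => h2 v hv j, Finset.sum_const,
        Finset.card_univ, smul_eq_mul, wj, Fin.sum_cons, Fin.sum_cons] at h3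
      have h5 : Fintype.card σ * e = e * Fintype.card σ := mul_comm _ _
      omega
    rw [h0, finrank_bot]
    exact Nat.zero_le _

end Vale.Agent.P181.H382.H556
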